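import Crest.Agent.X212.End23.Nek
import Crest.Agent.X212.Sw88.Cut
import Crest.Agent.X212.Win45.Slc
import Crest.Agent.X212.Dl42.Pt

/-!
# Row 212, EN-GSL (helper9): good slices
-/

set_option autoImplicit false
set_option linter.unusedSectionVars false
noncomputable section
open scoped Manifold ContDiff Topology InnerProductSpace
open MeasureTheory Set Filter

namespace Crest.Agent.X212.Gsl9
open An Wz78 Sob92 Cyf70 Sw88 End23 Win45
open Sw (Bg F2 En3)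
open Sw.En3

theorem scal {n n' V : ℝ → ℝ} {t d C K ε : ℝ} (hd : 0 < d) (hε : 0 ≤ ε) (hK : 0 ≤ K)
    (hn : ∀ s ∈ Icc (t - d) (t + d), HasDerivAt n (n' s) s) (hV : ContinuousOn V (Icc (t - d) (t + d)))
    (h0 : ∀ s ∈ Icc (t - d) (t + d), 0 ≤ V s) (hC : ∫ s in (t - d)..(t + d), V s ≤ C)
    (h : ∀ s ∈ Icc (t - d) (t + d), |n' s| ≤ ε * V s + K) :
    (∃ s ∈ Ioo (t - d) t, V s ≤ C / d ∧ n t - (ε * C + K * d) ≤ n s) ∧
      ∃ s ∈ Ioo t (t + d), V s ≤ C / d ∧ n t - (ε * C + K * d) ≤ n s := by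
  have k1 : ∀ a b, t - d ≤ a → a ≤ b → b ≤ t + d → ∫ s in a..b, V s ≤ C := fun a b h1 h2 h3 =>
    (intervalIntegral.integral_mono_interval h1 h2 h3 ((ae_restrict_iff' measurableSet_Ioc).2
      (.of_forall fun s k => h0 s (Ioc_subset_Icc_self k)))
      (hV.intervalIntegrable_of_Icc (by linarith))).trans hC
  have k2 : ∀ a b, t - d ≤ a → a ≤ b → b ≤ t + d → b - a ≤ d → |n b - n a| ≤ ε * C + K * d := by
    intro a b h1 h2 h3 h4
    have sub := Icc_subset_Icc h1 h3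
    have c1 := hV.mono sub
    have c2 : ContinuousOn (fun s => ε * V s + K) (Icc a b) := (c1.const_mul ε).add continuousOn_const
    have e : ∫ s in a..b, (ε * V s + K) ≤ ε * C + K * d := by
      rw [intervalIntegral.integral_add ((c1.intervalIntegrable_of_Icc h2).const_mul ε) (by simp),
        intervalIntegral.integral_const_mul, intervalIntegral.integral_const, smul_eq_mul, mul_comm _ K]
      gcongr
      exact k1 a b h1 h2 h3
    have j := fun (g g' : ℝ → ℝ) (k : ∀ s ∈ Icc a b, HasDerivAt g (g' s) s)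
        (k' : ∀ s ∈ Icc a b, g' s ≤ ε * V s + K) =>
      (intervalIntegral.sub_le_integral_of_hasDeriv_right_of_le h2
        (fun s m => (k s m).continuousAt.continuousWithinAt)
        (fun s m => (k s (Ioo_subset_Icc_self m)).hasDerivWithinAt) c2.integrableOn_Icc
        fun s m => k' s (Ioo_subset_Icc_self m)).trans e
    have j1 := j _ _ (fun s m => hn s (sub m)) fun s m => le_of_abs_le (h s (sub m))
    have j2 := j _ _ (fun s m => (hn s (sub m)).neg) fun s m => neg_le.1 (neg_le_of_abs_le (h s (sub m)))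
    simp only [Pi.neg_apply] at j2
    exact abs_le.2 ⟨by linarith, j1⟩
  have k3 : ∀ a b, t - d ≤ a → b = a + d → b ≤ t + d → ∃ s ∈ Ioo a b, V s ≤ C / d := by
    rintro a _ h1 rfl h3
    have l : a < a + d := by linarith
    obtain ⟨s, m, e⟩ := exists_eq_interval_average l.ne
      (uIcc_of_le l.le ▸ hV.mono (Icc_subset_Icc h1 h3))
    refine ⟨s, uIoo_of_lt l ▸ m, ?_⟩
    rw [e, interval_average_eq_div, add_sub_cancel_left]
    gcongr
    exact k1 _ _ h1 l.le h3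
  obtain ⟨s, m, e⟩ := k3 (t - d) t le_rfl (by ring) (by linarith)
  obtain ⟨s', m', e'⟩ := k3 t (t + d) (by linarith) rfl le_rfl
  have j1 := abs_le.1 (k2 s t m.1.le m.2.le (by linarith) (by linarith [m.1]))
  have j2 := abs_le.1 (k2 t s' (by linarith) m'.1.le m'.2.le (by linarith [m'.2]))
  exact ⟨⟨s, m, e, by linarith [j1.2]⟩, s', m', e', by linarith [j2.1]⟩

variable {κ lam ν : Type} [Fintype κ] [Fintype lam] [Fintype ν] [DecidableEq ν]
  {e : En3 κ lam ν} {c : e.ZC} {J : Set ℝ} {t K : ℝ}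

/-- the covariant derivatives of the spinor -/
abbrev nb (c : e.ZC) (i : Option κ) : e.Y.M × ℝ → Eu ν := nab (IC e.Y.I) e.cyl.F.e (e.cyl.W c) i c.Φ

/-- the spinorial part of the energy density -/
def vv (c : e.ZC) (x : e.Y.M × ℝ) : ℝ := e.w * ∑ i, ‖nb c i x‖ ^ 2 + e.w ^ 2 * (‖c.Φ x‖ ^ 2) ^ 2

variable (he : e.OK) (hJ : IsOpen J) (h : e.cyl.AdmOn c (univ ×ˢ J))
include he

theorem vv_nonneg (x) : 0 ≤ vv c x := add_nonneg (mul_nonneg he.cyl.w (by positivity)) (by positivity)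

omit he in
theorem vv_le (x) : vv c x ≤ Bg.ed (X := e.Z) e.cyl c x := by
  rw [vv, ← pow_mul, Bg.ed, add_assoc]
  exact le_add_of_nonneg_left (sq_nonneg _)

theorem dt_le {m : ℝ} (hm : 0 < m) (x) :
    |e.w * (2 * ⟪c.Φ x, (FZ e).D none c.Φ x⟫_ℝ)| ≤ m⁻¹ * vv c x + m ^ 3 := by
  have h1 : ⟪c.Φ x, (FZ e).D none c.Φ x⟫_ℝ = ⟪c.Φ x, nb c none x⟫_ℝ := by
    have h4 : e.cyl.W c none x = c.a none x • e.cyl.jp x := zero_add _
    have h5 := Dl42.jp_skw he.cyl x (c.Φ x) (c.Φ x)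
    rw [real_inner_comm] at h5
    simp only [nb, nab, h4, inner_add_right, smul_apply, real_inner_smul_right,
      show ⟪c.Φ x, e.cyl.jp x (c.Φ x)⟫_ℝ = 0 by linarith, mul_zero, add_zero]
    rfl
  have w0 : 0 ≤ e.w := he.cyl.w
  have h2 : ‖nb c none x‖ ^ 2 ≤ ∑ i, ‖nb c i x‖ ^ 2 :=
    Finset.single_le_sum (f := fun i => ‖nb c i x‖ ^ 2) (fun _ _ => sq_nonneg _) (Finset.mem_univ _)
  rw [h1, abs_mul, abs_of_nonneg w0, abs_mul, abs_two, ← sub_le_iff_le_add, le_inv_mul_iff₀ hm, vv]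
  have h3 := abs_real_inner_le_norm (c.Φ x) (nb c none x)
  nlinarith [mul_le_mul_of_nonneg_left h3 (mul_nonneg w0 hm.le), mul_le_mul_of_nonneg_left h2 w0,
    mul_nonneg w0 (sq_nonneg (m * ‖c.Φ x‖ - ‖nb c none x‖)), sq_nonneg (e.w * ‖c.Φ x‖ ^ 2 - m ^ 2),
    sq_nonneg (e.w * ‖c.Φ x‖ ^ 2), sq_nonneg (m ^ 2)]

include hJ h

omit he in
theorem sm_sq : ContMDiffOn (IC e.Y.I) 𝓘(ℝ, ℝ) ∞ (fun x => ‖c.Φ x‖ ^ 2) (univ ×ˢ J) :=
  (contDiff_norm_sq ℝ).contMDiff.comp_contMDiffOn h.sΦ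

theorem sm_vv : ContMDiffOn (IC e.Y.I) 𝓘(ℝ, ℝ) ∞ (vv c) (univ ×ˢ J) := fun x hx => by
  have k := (at_of hJ h.sΦ hx.2 x.1)
  have k' := at_of hJ (sm_sq hJ h) hx.2 x.1
  refine ContMDiffAt.contMDiffWithinAt (ContMDiffAt.add (SA.mul contMDiffAt_const
    (SA.sum _ fun i _ => (contDiff_norm_sq ℝ).contMDiff.contMDiffAt.comp x ?_))
    (SA.mul contMDiffAt_const ((contDiff_id.pow 2).contMDiff.contMDiffAt.comp x k')))
  exact (dv_smoothAt (e.cyl.F.sm i x) k).add (SA.app ((he.cyl.cc.sm i x).add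
    (SA.smul (at_of hJ (h.sa i) hx.2 x.1) (s_jp he.cyl x))) k)

theorem dr_le (hρ : ∀ i x, ‖e.cyl.m.ρ i x‖ ≤ K) (hm : ∀ x, ‖e.cyl.ms x‖ ≤ K) (ht : t ∈ J) (y) :
    e.w * ‖dr (sl c t) y - (0 : ℝ) • (sl c t).Φ y‖ ^ 2 ≤ K ^ 4 * (8 * Fintype.card (Option κ) + 2) *
      (vv c (y, t) + e.w * ‖c.Φ (y, t)‖ ^ 2) := by
  have K0 : 0 ≤ K := (norm_nonneg _).trans (hm (y, t))
  have w0 : 0 ≤ e.w := he.cyl.w
  have a1 : ∀ i u, ‖e.cyl.m.ρ i (y, t) u‖ ≤ K * ‖u‖ := fun i u => (e.cyl.m.ρ i _).le_of_opNorm_le (hρ i _) u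
  set S := ∑ i, ‖nb c i (y, t)‖
  have a2 : ‖e.cyl.eD c (y, t)‖ ≤ K * S + K * ‖c.Φ (y, t)‖ := (norm_add_le _ _).trans (add_le_add
    ((norm_sum_le _ _).trans ((Finset.sum_le_sum fun i _ => a1 i _).trans_eq (Finset.mul_sum ..).symm))
    ((e.cyl.ms _).le_of_opNorm_le (hm _) _))
  have a3 : ‖nb c none (y, t)‖ ≤ S :=
    Finset.single_le_sum (f := fun i => ‖nb c i (y, t)‖) (fun _ _ => norm_nonneg _) (Finset.mem_univ _)
  have a4 : e.cyl.eD (fz (sl c t)) (y, 0) =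
      e.cyl.eD c (y, t) - e.cyl.m.ρ none (y, t) (nb c none (y, t)) := by
    have h4 : e.cyl.W c none (y, t) = c.a none (y, t) • e.cyl.jp (y, t) := zero_add _
    rw [flow_D he hJ h ht, nb, nab, h4]
    exact (add_sub_cancel_left _ _).symm
  have a5 : ‖dr (sl c t) y‖ ≤ K * (K * (2 * S + ‖c.Φ (y, t)‖)) := by
    rw [dr, norm_neg, a4]
    refine (a1 none _).trans (mul_le_mul_of_nonneg_left ((norm_sub_le _ _).trans ?_) K0)
    linarith [a1 none (nb c none (y, t)), mul_le_mul_of_nonneg_left a3 K0]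
  have a6 : S ^ 2 ≤ Fintype.card (Option κ) * ∑ i, ‖nb c i (y, t)‖ ^ 2 := sq_sum_le_card_mul_sum_sq
  have a7 : 0 ≤ ∑ i, ‖nb c i (y, t)‖ ^ 2 := by positivity
  rw [zero_smul, sub_zero, vv]
  generalize ∑ i, ‖nb c i (y, t)‖ ^ 2 = Q at *
  have a8 : (0 : ℝ) ≤ Fintype.card (Option κ) := Nat.cast_nonneg _
  generalize (Fintype.card (Option κ) : ℝ) = n at *
  calc _ ≤ e.w * (K * (K * (2 * S + ‖c.Φ (y, t)‖))) ^ 2 := by gcongr
    _ = K ^ 4 * (e.w * (2 * S + ‖c.Φ (y, t)‖) ^ 2) := by ring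
    _ ≤ K ^ 4 * (e.w * ((8 * n + 2) * (Q + ‖c.Φ (y, t)‖ ^ 2))) := by
      gcongr
      nlinarith [sq_nonneg (2 * S - ‖c.Φ (y, t)‖), mul_nonneg a8 (sq_nonneg ‖c.Φ (y, t)‖)]
    _ ≤ _ := by
      rw [mul_assoc (K ^ 4)]
      refine mul_le_mul_of_nonneg_left ?_ (by positivity)
      nlinarith [mul_nonneg (show 0 ≤ 8 * n + 2 by positivity) (sq_nonneg (e.w * ‖c.Φ (y, t)‖ ^ 2))]

theorem fq_le (hρ : ∀ i x, ‖e.cyl.m.ρ i x‖ ≤ K) (hm : ∀ x, ‖e.cyl.ms x‖ ≤ K) (ht : t ∈ J) :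
    e.w * fq 0 (sl c t) ≤ K ^ 4 * (8 * Fintype.card (Option κ) + 2) *
      (∫ y, vv c (y, t) ∂e.D.F.μ + e.w * nm (sl c t)) := by
  have i1 := int_sl e.D.F.toPre (sm_vv he hJ h).continuousOn ht
  have i2 := (int_sl e.D.F.toPre (sm_sq hJ h).continuousOn ht).const_mul e.w
  rw [fq, nm, ← integral_const_mul, ← integral_const_mul]
  refine (integral_mono_of_nonneg (.of_forall fun y => mul_nonneg he.cyl.w (sq_nonneg _))
    ((i1.add i2).const_mul _) (.of_forall fun y => dr_le he hJ h hρ hm ht y)).trans_eq ?_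
  rw [integral_const_mul, integral_add' i1 i2]
  rfl

theorem nm_der {m : ℝ} (hm : 0 < m) (ht : t ∈ J) : ∃ n', HasDerivAt (fun s => e.w * nm (sl c s)) n' t ∧
    |n'| ≤ m⁻¹ * ∫ y, vv c (y, t) ∂e.D.F.μ + m ^ 3 * e.D.F.μ.real univ := by
  have i1 := (int_sl e.D.F.toPre (sm_vv he hJ h).continuousOn ht).const_mul m⁻¹
  have i2 : Integrable (fun _ => m ^ 3) e.D.F.μ :=
    continuous_const.integrable_of_hasCompactSupport (.of_compactSpace _)
  refine ⟨_, (der_sl e.D.F.toPre hJ (sm_sq hJ h) ht).const_mul e.w, ?_⟩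
  rw [← integral_const_mul, ← integral_const_mul, mul_comm (m ^ 3), ← smul_eq_mul, ← integral_const,
    ← integral_add i1 i2]
  refine abs_integral_le_integral_abs.trans (integral_mono_of_nonneg
    (.of_forall fun _ => abs_nonneg _) (i1.add i2) (.of_forall fun y => ?_))
  simp only [(der_at (at_of hJ (sm_sq hJ h) ht y)).unique (der_at (at_of hJ h.sΦ ht y)).norm_sq]
  exact dt_le he hm _

theorem int_vv {a b C : ℝ} (hab : a ≤ b) (hs : Icc a b ⊆ J) (hC : ∫⁻ x in univ ×ˢ J,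
    ENNReal.ofReal (Bg.ed (X := e.Z) e.cyl c x) ∂e.D.Z.μ ≤ ENNReal.ofReal C) :
    ∫ s in a..b, ∫ y, vv c (y, s) ∂e.D.F.μ ≤ |C| := by
  have i1 : IntegrableOn (vv c) (univ ×ˢ Ioc a b) e.D.Z.μ :=
    (((sm_vv he hJ h).continuousOn.mono (prod_mono_right hs)).integrableOn_compact
      (isCompact_univ.prod isCompact_Icc)).mono_set (prod_mono_right Ioc_subset_Icc_self)
  have i2 : ∫ x in univ ×ˢ Ioc a b, vv c x ∂e.D.Z.μ ≤ |C| := by
    rw [integral_eq_lintegral_of_nonneg_ae (.of_forall (vv_nonneg he)) i1.1]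
    exact ENNReal.toReal_le_of_le_ofReal (abs_nonneg C) (((lintegral_mono_set (prod_mono_right
      (Ioc_subset_Icc_self.trans hs))).trans (lintegral_mono fun x =>
        ENNReal.ofReal_le_ofReal (vv_le x))).trans (hC.trans (ENNReal.ofReal_le_ofReal (le_abs_self C))))
  change IntegrableOn _ _ (e.D.F.μ.prod volume) at i1
  change ∫ x in _, _ ∂(e.D.F.μ.prod volume) ≤ _ at i2
  rw [IntegrableOn, ← Measure.prod_restrict, Measure.restrict_univ] at i1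
  rwa [← Measure.prod_restrict, Measure.restrict_univ, integral_prod_symm _ i1,
    ← intervalIntegral.integral_of_le hab] at i2

omit he hJ h in
/-- **EN-GSL** -/
theorem gsl : GslStmt κ lam ν := by
  intro e he C ρ hρ
  obtain ⟨K, h1, h2⟩ : ∃ K, (∀ i x, ‖e.cyl.m.ρ i x‖ ≤ K) ∧ ∀ x, ‖e.cyl.ms x‖ ≤ K := by
    choose A hA using he.cyl.cρ
    obtain ⟨B, hB⟩ := he.cyl.cms
    obtain ⟨R, hR⟩ := (finite_range fun i => A i 0).bddAbove
    exact ⟨max R (B 0), fun i x => ((CB_bound ((hA i).2 0) x).trans (hR ⟨i, rfl⟩)).trans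
      (le_max_left _ _), fun x => (CB_bound (hB.2 0) x).trans (le_max_right _ _)⟩
  obtain ⟨m, m0, m1⟩ : ∃ m > 0, m⁻¹ * |C| ≤ ρ / 4 := ⟨4 * |C| / ρ + 1, by positivity, by
    rw [inv_mul_le_iff₀ (by positivity), add_mul, show 4 * |C| / ρ * (ρ / 4) = |C| by field_simp]
    linarith⟩
  have v0 : 0 ≤ m ^ 3 * e.D.F.μ.real univ := by positivity
  obtain ⟨d, d0, d1, d2⟩ : ∃ d > 0, d < 1 / 8 ∧ m ^ 3 * e.D.F.μ.real univ * d ≤ ρ / 4 := by
    refine ⟨min (1 / 16) (ρ / 4 / (m ^ 3 * e.D.F.μ.real univ + 1)), by positivity,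
      (min_le_left _ _).trans_lt (by norm_num),
      (mul_le_mul_of_nonneg_left (min_le_right _ _) v0).trans ?_⟩
    rw [mul_div_assoc', div_le_iff₀ (by positivity)]
    linarith
  refine ⟨K ^ 4 * (8 * Fintype.card (Option κ) + 2) * (|C| / d * (2 / ρ) + 1),
    fun w b S ψ he A t h hC hn => ?_⟩
  have sub : Icc (t - d) (t + d) ⊆ Ioo (t - 1 / 8) (t + 1 / 8) :=
    Icc_subset_Ioo (by linarith) (by linarith)
  choose! n' k1 k2 using fun s hs => nm_der (t := s) he isOpen_Ioo h m0 hs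
  have w0 : 0 < w := lt_of_le_of_ne he.cyl.w fun k => by
    rw [← k, zero_mul] at hn; exact hn.not_gt hρ
  have key : ∀ s ∈ Ioo (t - d) (t + d), ∫ y, vv A (y, s) ∂e.D.F.μ ≤ |C| / d ∧ w * nm (sl A t) -
      (m⁻¹ * |C| + m ^ 3 * e.D.F.μ.real univ * d) ≤ w * nm (sl A s) →
      fq 0 (sl A s) ≤ K ^ 4 * (8 * Fintype.card (Option κ) + 2) * (|C| / d * (2 / ρ) + 1) *
        nm (sl A s) ∧ ρ / 2 ≤ w * nm (sl A s) := fun s hs ⟨k3, k4⟩ => by
    have k5 : ρ / 2 ≤ w * nm (sl A s) := by linarith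
    refine ⟨le_of_mul_le_mul_left ((fq_le he isOpen_Ioo h h1 h2
      (sub (Ioo_subset_Icc_self hs))).trans ?_) w0, k5⟩
    rw [mul_assoc _ (_ + 1), mul_left_comm w, mul_left_comm w, add_mul _ 1, one_mul]
    refine mul_le_mul_of_nonneg_left (add_le_add (k3.trans ?_) le_rfl) (by positivity)
    rw [mul_assoc]
    refine le_mul_of_one_le_right (by positivity) ?_
    rw [div_mul_eq_mul_div, one_le_div hρ]
    linarith
  obtain ⟨⟨s, m, k⟩, s', m', k'⟩ := scal d0 (inv_pos.2 m0).le v0 (fun s hs => k1 s (sub hs))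
    ((cd_sl (e.re w b S ψ).D.F.toPre isOpen_Ioo (sm_vv he isOpen_Ioo h)).continuousOn.mono sub)
    (fun s _ => integral_nonneg fun y => vv_nonneg he _)
    (int_vv he isOpen_Ioo h (by linarith) sub hC) fun s hs => k2 s (sub hs)
  exact ⟨⟨s, ⟨by linarith [m.1], m.2⟩, key s ⟨m.1, by linarith [m.2]⟩ k⟩,
    s', ⟨m'.1, by linarith [m'.2]⟩, key s' ⟨by linarith [m'.1], m'.2⟩ k'⟩

end Crest.Agent.X212.Gsl9
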