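import Crest.Agent.X212.End23.Nek
import Crest.Agent.X212.Frq23.Abs

/-!
# Row 212, EN-FRQ (helper9): scalar barriers
-/

set_option autoImplicit false
noncomputable section
open MeasureTheory Set

namespace Crest.Agent.X212.Gsl9
open End23

theorem sq_le {C x N : ℝ} (hx : 0 ≤ x) :
    C * √(1 + x + |N|) ≤ x ^ 2 / (2 * (1 + N ^ 2)) + ((C ^ 2 / 4 + 1) ^ 2 / 2 + 1 + |N|) := by
  have h0 := abs_nonneg N
  obtain ⟨m, m0, m1⟩ : ∃ m, 0 < m ∧ m ^ 2 = 1 + |N| :=
    ⟨√(1 + |N|), by positivity, Real.sq_sqrt (by positivity)⟩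
  obtain ⟨y, rfl⟩ : ∃ y, x = y * m := ⟨x / m, by field_simp⟩
  have h1 : √(1 + y * m + |N|) ^ 2 = m * (m + y) := by
    rw [Real.sq_sqrt (by positivity)]; linarith
  generalize √(1 + y * m + |N|) = u at h1
  have h2 : C * u ≤ C ^ 2 * m / 4 + (m + y) :=
    le_of_mul_le_mul_left (by nlinarith [sq_nonneg (C * m / 2 - u)]) m0
  have h3 : (y / m) ^ 2 / 2 ≤ (y * m) ^ 2 / (2 * (1 + N ^ 2)) := by
    rw [show (y / m) ^ 2 / 2 = (y * m) ^ 2 / (2 * (m ^ 2) ^ 2) by field_simp, m1]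
    gcongr
    nlinarith [sq_abs N]
  have h4 : y = y / m * m := by field_simp
  nlinarith [sq_nonneg (y / m - m), sq_nonneg (C ^ 2 / 4 + 1 - m)]

theorem fwd (Sp : Set ℝ) (hS : ∀ R, (Sp ∩ Icc (-R) R).Finite) (Λ C : ℝ) : ∃ M ≥ (1 : ℝ),
    ∃ ε > 0, ∀ (a b : ℝ) (l N x β r : ℝ → ℝ), Sc (Icc a b) Sp C ε l N x β r →
      IntegrableOn r (Icc a b) → ∫ t in Icc a b, r t ≤ C → ContinuousOn β (Icc a b) →
      N a ≤ Λ → ∀ s t, a ≤ s → s ≤ t → t ≤ b →
        N t ≤ M ∧ (∫ τ in s..t, (2 * β τ - M)) - M ≤ l t - l s := by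
  set M₀ := Real.exp (2 * |C| + 3) * (1 + |Λ|) with hM
  have M0 : 0 ≤ M₀ := by positivity
  set S := (hS (M₀ + 2)).toFinset
  set δ : ℝ := 1 / (8 * (S.card + 1))
  have hδ : 0 < δ := by positivity
  have hδ1 : δ ≤ 1 := (div_le_one (by positivity)).2 (by linarith [S.card.cast_nonneg (α := ℝ)])
  have hδS : 8 * δ * S.card ≤ 1 := by
    rw [show 8 * δ * S.card = S.card / (S.card + 1) by simp only [δ]; field_simp]
    exact (div_le_one (by positivity)).2 (by linarith)
  set D := (C ^ 2 / 4 + 1) ^ 2 / 2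
  have D0 : 0 ≤ D := by positivity
  have C0 := abs_nonneg C
  refine ⟨D + 3 * M₀ + 2 * |C| + 4, by linarith, min 1 (δ ^ 2 / (2 * (M₀ + 2))), by positivity,
    fun a b l N x β r h hr hC hβ h0 s t hs hst ht => ?_⟩
  set ε := min 1 (δ ^ 2 / (2 * (M₀ + 2)))
  have e1 : ε ≤ 1 := min_le_left _ _
  have e2 : ε * (2 * (M₀ + 2)) ≤ δ ^ 2 := (le_div_iff₀ (by positivity)).1 (min_le_right _ _)
  have e0 : 0 < ε := by positivity
  choose! l' N' h1 h2 h3 h4 using h.der
  have ir : ∀ s t, a ≤ s → s ≤ t → t ≤ b → ∫ τ in s..t, 2 * r τ ≤ 2 * |C| := fun s t hs hst ht => by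
    rw [intervalIntegral.integral_const_mul, intervalIntegral.integral_of_le hst]
    linarith [le_abs_self C, setIntegral_mono_set hr
      ((ae_restrict_iff' measurableSet_Icc).2 (.of_forall h.r0))
      ((Ioc_subset_Icc_self.trans (Icc_subset_Icc hs ht)).eventuallyLE)]
  have hN : ∀ t ∈ Icc a b, N t ≤ M₀ := fun t ht => by
    have sub : Icc a t ⊆ Icc a b := Icc_subset_Icc_right ht.2
    refine Frq23.barrier (g := fun τ => 2 * r τ) (abs_nonneg Λ) (by positivity) hM.ge S hδ hδS ht.1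
      (fun τ k => h2 τ (sub k)) ((hr.mono_set sub).const_mul 2)
      (fun τ k => by linarith [h.r0 τ (sub k)]) (ir a t le_rfl ht.1 ht.2) (fun τ k k1 k2 k3 => ?_)
      (h0.trans (le_abs_self _))
    have k4 := h3 τ (sub k)
    have k5 := h.r0 τ (sub k)
    rw [abs_of_nonneg k1] at k4
    rcases h.gap τ (sub k) with k6 | k6
    · nlinarith [sq_nonneg (x τ), mul_nonneg (sub_nonneg.2 (e1.trans k6)) (add_nonneg zero_le_one k1)]
    · have k7 := k6 δ hδ.le fun σ hσ => by
        by_cases k8 : σ ∈ Icc (-(M₀ + 2)) (M₀ + 2)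
        · exact k3 σ ((hS _).mem_toFinset.2 ⟨hσ, k8⟩)
        · refine not_lt.1 fun k9 => k8 ?_
          rw [abs_lt] at k9
          constructor <;> linarith [k9.1, k9.2]
      nlinarith [mul_le_mul k7 k7 hδ.le (hδ.le.trans k7), mul_nonneg k5 (add_nonneg zero_le_one k1),
        mul_le_mul_of_nonneg_left k2 e0.le]
  have sub := Icc_subset_Icc hs ht
  have iβ : IntegrableOn (fun τ => 2 * β τ - (D + 3 * M₀ + 2 * |C| + 4)) (Icc s t) :=
    ContinuousOn.integrableOn_Icc (((hβ.mono sub).const_mul 2).sub continuousOn_const)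
  have ir' := (hr.mono_set sub).const_mul 2
  have hd := fun τ (k : τ ∈ Icc s t) =>
    (h1 τ (sub k)).sub ((Real.hasDerivAt_arctan _).comp τ (h2 τ (sub k)))
  have := intervalIntegral.integral_le_sub_of_hasDeriv_right_of_le hst
    (fun τ k => (hd τ k).continuousAt.continuousWithinAt)
    (fun τ k => (hd τ (Ioo_subset_Icc_self k)).hasDerivWithinAt) (iβ.sub ir') fun τ k => by
      have k := sub (Ioo_subset_Icc_self k)
      have k1 := (abs_le.1 (h4 τ k)).1
      have k2 : C * _ ≤ _ + (D + 1 + |N τ|) := sq_le (h.x0 τ k)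
      have k3 := h.r0 τ k
      have k4 : 1 / (1 + N τ ^ 2) * N' τ ≤ -(x τ ^ 2 / (2 * (1 + N τ ^ 2))) + 2 * (ε + r τ) := by
        rw [one_div, inv_mul_le_iff₀ (by positivity), mul_add,
          show (1 + N τ ^ 2) * -(x τ ^ 2 / (2 * (1 + N τ ^ 2))) = -x τ ^ 2 / 2 by field_simp]
        nlinarith [h3 τ k, mul_nonneg (add_nonneg e0.le k3)
          (show 0 ≤ 2 * (1 + N τ ^ 2) - (1 + |N τ|) by nlinarith [sq_abs (N τ), sq_nonneg (|N τ| - 1)])]
      have k5 : 2 * N τ + |N τ| ≤ 3 * M₀ := by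
        have := hN τ k
        rcases abs_cases (N τ) with k | k <;> linarith [k.1, k.2]
      simp only [Pi.sub_apply]
      linarith
  have j := fun (f : ℝ → ℝ) (k : IntegrableOn f (Icc s t)) =>
    (intervalIntegrable_iff_integrableOn_Icc_of_le (f := f) (μ := volume) hst).2 k
  simp only [Pi.sub_apply, Function.comp] at this
  rw [intervalIntegral.integral_sub (j _ iβ) (j _ ir')] at this
  refine ⟨by linarith [hN t ⟨hs.trans hst, ht⟩], ?_⟩
  linarith [ir s t hs hst ht, Real.arctan_lt_pi_div_two (N s), Real.neg_pi_div_two_lt_arctan (N t),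
    Real.pi_le_four]

/-- **EN-FRQ** -/
theorem frq : FrqStmt := by
  intro Sp hS Λ C
  obtain ⟨M, hM, ε, hε, h⟩ := fwd (Sp ∪ -Sp) (fun R => by
    rw [union_inter_distrib_right]
    exact (hS R).union ((hS R).neg.subset fun x k => ⟨k.1, by linarith [k.2.2], by linarith [k.2.1]⟩))
    Λ C
  refine ⟨M, hM, ε, hε, fun a b l N x β r k hr hC hβ => ⟨h a b l N x β r ⟨k.der, k.x0, k.r0,
    fun t ht => (k.gap t ht).imp_right fun k δ h0 h1 => k δ h0 fun l hl => h1 l (.inl hl)⟩ hr hC hβ,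
    fun h0 s t hs hst ht => ?_⟩⟩
  have hab : a ≤ b := hs.trans (hst.trans ht)
  have m : ∀ t ∈ Icc (-b) (-a), -t ∈ Icc a b := fun t k => ⟨by linarith [k.2], by linarith [k.1]⟩
  have ir : IntegrableOn (fun t => r (-t)) (Icc (-b) (-a)) := by
    refine (intervalIntegrable_iff_integrableOn_Icc_of_le (neg_le_neg hab)).1 ?_
    simpa using (((intervalIntegrable_iff_integrableOn_Icc_of_le hab).2 hr).comp_sub_left 0).symm
  have ic : ∫ t in Icc (-b) (-a), r (-t) ≤ C := by
    rwa [integral_Icc_eq_integral_Ioc, ← intervalIntegral.integral_of_le (neg_le_neg hab),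
      intervalIntegral.integral_comp_neg, neg_neg, neg_neg, intervalIntegral.integral_of_le hab,
      ← integral_Icc_eq_integral_Ioc]
  have sc : Sc (Icc (-b) (-a)) (Sp ∪ -Sp) C ε (fun t => l (-t)) (fun t => -N (-t)) (fun t => x (-t))
      (fun t => -β (-t)) fun t => r (-t) := by
    refine ⟨fun t ht => ?_, fun t ht => k.x0 _ (m t ht), fun t ht => k.r0 _ (m t ht),
      fun t ht => (k.gap _ (m t ht)).imp_right fun k δ h0 h1 => k δ h0 fun l hl => ?_⟩
    · obtain ⟨l', N', k1, k2, k3, k4⟩ := k.der _ (m t ht)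
      refine ⟨-l', N', (k1.comp t (hasDerivAt_neg t)).congr_deriv (by ring),
        (k2.comp t (hasDerivAt_neg t)).neg.congr_deriv (by ring), by rwa [abs_neg], ?_⟩
      rw [abs_neg, ← abs_neg]
      convert k4 using 2
      ring
    · have := h1 (-l) (.inr (by simpa using hl))
      rwa [← abs_neg, show -(-N (-t) - -l) = N (-t) - l by ring] at this
  have := h _ _ _ _ _ _ _ sc ir ic (hβ.comp continuousOn_neg m).neg (by simpa [neg_le] using h0)
    (-t) (-s) (neg_le_neg ht) (neg_le_neg hst) (neg_le_neg hs)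
  simp only [neg_neg] at this
  refine ⟨by linarith [this.1], ?_⟩
  have e := intervalIntegral.integral_comp_neg (a := -t) (b := -s) fun τ => 2 * β τ + M
  have e' : ∫ τ in -t..-s, (2 * -β (-τ) - M) = -∫ τ in -t..-s, (2 * β (-τ) + M) := by
    rw [← intervalIntegral.integral_neg]; congr 1; funext τ; ring
  simp only [neg_neg] at e
  linarith [this.2]

end Crest.Agent.X212.Gsl9
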